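import Mathlib.MeasureTheory.Measure.Lebesgue.EqHaar
import Mathlib.MeasureTheory.Measure.Prod
import Mathlib.Analysis.Convex.Basic
import Mathlib.Analysis.Convex.PathConnected

/-!
A symmetric planar convex set plus a segment: Steiner's bound by horizontal slices.
-/

namespace Vale.Agent.P243.Sym

open MeasureTheory Set
open scoped ENNReal

noncomputable section

/-- If no horizontal chord of the symmetric convex set `D` through the origin is longer than
`2 * z / γ`, then adding the segment `[-m * z, m * z]` to `l • D` gains the factor `1 + m * γ / l`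
in area. -/
theorem planar_bound {D : Set (ℝ × ℝ)} (hD : IsCompact D) (hc : Convex ℝ D)
    (hs : ∀ x ∈ D, -x ∈ D) {z γ : ℝ} (hγ : 0 ≤ γ)
    (hmax : ∀ a : ℝ, (a, (0 : ℝ)) ∈ D → a * γ ≤ z) {l m : ℝ} (hl : 0 < l) (hm : 0 ≤ m) :
    ENNReal.ofReal (l ^ 2 + l * m * γ) * volume D ≤
      volume ((fun q : (ℝ × ℝ) × ℝ => l • q.1 + (q.2, (0 : ℝ))) ''
        (D ×ˢ Icc (-(m * z)) (m * z))) := by
  set SS := (fun q : (ℝ × ℝ) × ℝ => l • q.1 + (q.2, (0 : ℝ))) '' (D ×ˢ Icc (-(m * z)) (m * z))
    with hSS
  have hSSm : MeasurableSet SS :=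
    ((hD.prod isCompact_Icc).image (by fun_prop)).isClosed.measurableSet
  have hsl : ∀ r : ℝ, ENNReal.ofReal (l + m * γ) * volume ((fun a => (a, r)) ⁻¹' D) ≤
      volume ((fun a => (a, l * r)) ⁻¹' SS) := by
    intro r
    rcases ((fun a => (a, r)) ⁻¹' D).eq_empty_or_nonempty with h | h
    · simp [h]
    have hcl : IsClosed ((fun a => (a, r)) ⁻¹' D) := hD.isClosed.preimage (by fun_prop)
    have hbd : IsCompact ((fun a => (a, r)) ⁻¹' D) :=
      (hD.image continuous_fst).of_isClosed_subset hcl fun a ha => ⟨_, ha, rfl⟩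
    have hcv : Convex ℝ ((fun a => (a, r)) ⁻¹' D) := by
      intro a ha b hb s t hs' ht hst
      have h' := hc ha hb hs' ht hst
      have e : s • (a, r) + t • (b, r) = (s • a + t • b, r) := by
        ext
        · simp
        · simp [← add_mul, hst]
      rwa [e] at h'
    have hI := eq_Icc_of_connected_compact (hcv.isConnected h) hbd
    set b := sInf ((fun a => (a, r)) ⁻¹' D)
    set t := sSup ((fun a => (a, r)) ⁻¹' D)
    have hbt : b ≤ t := by
      obtain ⟨a, ha⟩ := h
      rw [hI] at ha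
      exact ha.1.trans ha.2
    have hb' : (b, r) ∈ D := (hI.symm ▸ left_mem_Icc.2 hbt : b ∈ (fun a => (a, r)) ⁻¹' D)
    have ht' : (t, r) ∈ D := (hI.symm ▸ right_mem_Icc.2 hbt : t ∈ (fun a => (a, r)) ⁻¹' D)
    have hhalf : (t - b) / 2 * γ ≤ z := by
      refine hmax _ ?_
      have h' := hc ht' (hs _ hb') (by norm_num : (0 : ℝ) ≤ 1 / 2)
        (by norm_num : (0 : ℝ) ≤ 1 / 2) (by norm_num)
      have e : ((1 : ℝ) / 2) • (t, r) + ((1 : ℝ) / 2) • -(b, r) = ((t - b) / 2, (0 : ℝ)) := by
        ext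
        · simp; ring
        · simp
      rwa [e] at h'
    have hz : 0 ≤ z := le_trans (mul_nonneg (by linarith) hγ) hhalf
    have hsub : Icc (l * b - m * z) (l * t + m * z) ⊆ (fun a => (a, l * r)) ⁻¹' SS := by
      intro a ha
      have hmz : 0 ≤ m * z := mul_nonneg hm hz
      obtain ⟨d, hd, hd'⟩ : ∃ d ∈ Icc (l * b) (l * t), |a - d| ≤ m * z := by
        refine ⟨max (l * b) (min (l * t) a), ⟨le_max_left _ _, max_le
          (mul_le_mul_of_nonneg_left hbt hl.le) (min_le_left _ _)⟩, ?_⟩
        have := mul_le_mul_of_nonneg_left hbt hl.le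
        rw [abs_le]
        rcases le_total a (l * b) with h1 | h1
        · rw [min_eq_right (h1.trans this), max_eq_left h1]
          exact ⟨by linarith [ha.1], by linarith⟩
        rcases le_total (l * t) a with h2 | h2
        · rw [min_eq_left h2, max_eq_right this]
          exact ⟨by linarith, by linarith [ha.2]⟩
        · rw [min_eq_right h2, max_eq_right h1]
          exact ⟨by linarith, by linarith⟩
      have hdl : d / l ∈ Icc b t :=
        ⟨(le_div_iff₀ hl).2 (by linarith [hd.1]), (div_le_iff₀ hl).2 (by linarith [hd.2])⟩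
      have hdD : (d / l, r) ∈ D := by rw [← hI] at hdl; exact hdl
      refine ⟨((d / l, r), a - d), ⟨hdD, abs_le.1 hd'⟩, ?_⟩
      ext
      · simp; field_simp; ring
      · simp
    calc ENNReal.ofReal (l + m * γ) * volume ((fun a => (a, r)) ⁻¹' D)
        = ENNReal.ofReal ((l + m * γ) * (t - b)) := by
          rw [hI, Real.volume_Icc, ← ENNReal.ofReal_mul (by positivity)]
      _ ≤ ENNReal.ofReal ((l * t + m * z) - (l * b - m * z)) := by
          apply ENNReal.ofReal_le_ofReal
          nlinarith [mul_le_mul_of_nonneg_left hhalf hm]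
      _ ≤ _ := by rw [← Real.volume_Icc]; exact measure_mono hsub
  have hDv : volume D = ∫⁻ r : ℝ, volume ((fun a => (a, r)) ⁻¹' D) := by
    rw [Measure.volume_eq_prod, Measure.prod_apply_symm hD.isClosed.measurableSet]
  have hSv : volume SS = ∫⁻ y : ℝ, volume ((fun a => (a, y)) ⁻¹' SS) := by
    rw [Measure.volume_eq_prod, Measure.prod_apply_symm hSSm]
  have hf : Measurable fun y : ℝ => volume ((fun a => (a, y)) ⁻¹' SS) :=
    measurable_measure_prodMk_right hSSm
  have hscale : ∫⁻ r : ℝ, volume ((fun a => (a, l * r)) ⁻¹' SS) =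
      ENNReal.ofReal l⁻¹ * volume SS := by
    rw [← lintegral_map hf (measurable_const_mul l), Real.map_volume_mul_left hl.ne',
      lintegral_smul_measure, abs_of_pos (inv_pos.2 hl), hSv, smul_eq_mul]
  calc ENNReal.ofReal (l ^ 2 + l * m * γ) * volume D
      = ENNReal.ofReal l * ∫⁻ r : ℝ,
          ENNReal.ofReal (l + m * γ) * volume ((fun a => (a, r)) ⁻¹' D) := by
        rw [lintegral_const_mul' _ _ ENNReal.ofReal_ne_top, ← hDv, ← mul_assoc,
          ← ENNReal.ofReal_mul hl.le]
        ring_nf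
    _ ≤ ENNReal.ofReal l * ∫⁻ r : ℝ, volume ((fun a => (a, l * r)) ⁻¹' SS) := by
        gcongr with r
        exact hsl r
    _ = volume SS := by
        rw [hscale, ← mul_assoc, ← ENNReal.ofReal_mul hl.le, mul_inv_cancel₀ hl.ne',
          ENNReal.ofReal_one, one_mul]

end

end Vale.Agent.P243.Sym
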