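import Vale.Agent.P243.Gap.Main
import Vale.Agent.P243.Sym.Planar
import Mathlib.Analysis.SpecialFunctions.Integrals.Basic

/-!
Cylinder coverings of centrally symmetric bodies: the relative area is at least `5/12`.

The weight `1 + 2 * gauge` has total mass `5/2` of the volume, while every chord in the direction
`u` carries at most six times the volume divided by the area of the shadow.
-/

namespace Vale.Agent.P243.Sym

open MeasureTheory Set Gap Pointwise
open scoped ENNReal InnerProductSpace

noncomputable section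

variable (S : Body)

theorem volume_pos : 0 < volume.real S.K :=
  lt_of_lt_of_le (mul_pos S.distortion_pos (by norm_num)) S.real_K_ge

theorem volume_gauge_le {s : ℝ} (hs : 0 ≤ s) :
    volume {x | S.g x ≤ s} = ENNReal.ofReal (s ^ 3) * volume S.K := by
  rcases hs.eq_or_lt with rfl | hs'
  · have : {x | S.g x ≤ 0} ⊆ ({0} : Set R3) := fun x hx => by
      have h1 := S.norm_le_g x
      have h2 : ‖S.T x‖ = 0 := le_antisymm (by
        have : S.g x ≤ 0 := hx
        linarith) (norm_nonneg _)
      simpa using h2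
    rw [measure_mono_null this (measure_singleton 0)]
    simp
  · have : {x | S.g x ≤ s} = s • S.K := by
      ext x
      rw [mem_smul_set_iff_inv_smul_mem₀ hs'.ne', S.mem_iff, S.g_smul (inv_nonneg.2 hs),
        inv_mul_le_iff₀ hs', mul_one]
      rfl
    rw [this, Measure.addHaar_smul_of_nonneg volume hs, finrank_euclideanSpace_fin]

theorem lintegral_gauge :
    ∫⁻ x in S.K, ENNReal.ofReal (S.g x) = ENNReal.ofReal (3 / 4 * volume.real S.K) := by
  have hKf : volume S.K ≠ ⊤ := S.cpt.measure_lt_top.ne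
  set V := volume.real S.K with hV
  rw [lintegral_eq_lintegral_meas_lt _ (Filter.Eventually.of_forall S.g_nonneg)
    S.g_continuous.measurable.aemeasurable]
  have hlev : ∀ s ∈ Ioi (0 : ℝ), (volume.restrict S.K) {x | s < S.g x} =
      (Ioo (0 : ℝ) 1).indicator (fun s => ENNReal.ofReal ((1 - s ^ 3) * V)) s := by
    intro s hs
    rw [Measure.restrict_apply (measurableSet_lt measurable_const S.g_continuous.measurable)]
    by_cases h1 : s < 1
    · rw [indicator_of_mem (show s ∈ Ioo (0 : ℝ) 1 from ⟨hs, h1⟩)]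
      have hsub : {x | S.g x ≤ s} ⊆ S.K := fun x hx =>
        (S.mem_iff x).2 (le_trans hx h1.le)
      have e : {x | s < S.g x} ∩ S.K = S.K \ {x | S.g x ≤ s} := by
        ext x; simp [and_comm]
      rw [e, measure_sdiff hsub
        (measurableSet_le S.g_continuous.measurable measurable_const).nullMeasurableSet
        (ne_top_of_le_ne_top hKf (measure_mono hsub)), volume_gauge_le S (le_of_lt hs),
        ← ofReal_measureReal hKf, ← hV, ← ENNReal.ofReal_mul (pow_nonneg (le_of_lt hs) 3),
        ← ENNReal.ofReal_sub _ (mul_nonneg (pow_nonneg (le_of_lt hs) 3) measureReal_nonneg)]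
      congr 1; ring
    · rw [indicator_of_notMem fun h => h1 h.2]
      have e : {x | s < S.g x} ∩ S.K = ∅ := by
        ext x
        simp only [mem_inter_iff, mem_ofPred_eq, mem_empty_iff_false, iff_false, not_and, S.mem_iff]
        intro h
        linarith
      rw [e, measure_empty]
  rw [setLIntegral_congr_fun measurableSet_Ioi hlev, setLIntegral_indicator measurableSet_Ioo,
    inter_eq_left.2 (Ioo_subset_Ioi_self : Ioo (0 : ℝ) 1 ⊆ Ioi 0)]
  have hio : IntegrableOn (fun s : ℝ => (1 - s ^ 3) * V) (Ioo 0 1) :=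
    (Continuous.integrableOn_Icc (by fun_prop)).mono_set Ioo_subset_Icc_self
  rw [← ofReal_integral_eq_lintegral_ofReal hio]
  · congr 1
    rw [← integral_Ioc_eq_integral_Ioo, ← intervalIntegral.integral_of_le zero_le_one,
      intervalIntegral.integral_mul_const,
      intervalIntegral.integral_sub intervalIntegrable_const
        ((continuous_pow 3).intervalIntegrable 0 1), integral_pow]
    norm_num
  · filter_upwards [ae_restrict_mem measurableSet_Ioo] with s hs
    have : s ^ 3 ≤ 1 := pow_le_one₀ hs.1.le hs.2.le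
    exact mul_nonneg (by linarith) measureReal_nonneg

/-- The weight. -/
def wt (x : R3) : ℝ≥0∞ := ENNReal.ofReal (1 + 2 * S.g x)

theorem measurable_wt : Measurable (wt S) :=
  (measurable_const.add (S.g_continuous.measurable.const_mul 2)).ennreal_ofReal

theorem lintegral_wt : ∫⁻ x in S.K, wt S x = ENNReal.ofReal (5 / 2) * volume S.K := by
  have e : ∀ x, wt S x = 1 + ENNReal.ofReal 2 * ENNReal.ofReal (S.g x) := fun x => by
    rw [wt, ENNReal.ofReal_add zero_le_one (mul_nonneg two_pos.le (S.g_nonneg x)),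
      ENNReal.ofReal_one, ENNReal.ofReal_mul two_pos.le]
  have hKf : volume S.K ≠ ⊤ := S.cpt.measure_lt_top.ne
  have hV : 0 ≤ volume.real S.K := measureReal_nonneg
  simp only [e]
  rw [lintegral_add_left measurable_const, lintegral_const_mul' _ _ ENNReal.ofReal_ne_top,
    lintegral_gauge, setLIntegral_const, one_mul, ← ofReal_measureReal hKf,
    ← ENNReal.ofReal_mul two_pos.le, ← ENNReal.ofReal_mul (by norm_num),
    ← ENNReal.ofReal_add hV (by positivity)]
  ring_nf

theorem shadow_eq (c : OrthonormalBasis (Fin 3) ℝ R3) :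
    (iota c) ⁻¹' (planeProj (c 1) '' S.K) = S.shadow c := by
  ext p
  constructor
  · rintro ⟨x, hx, he⟩
    refine ⟨x, hx, ?_⟩
    have h2 := iota_pi2 c x
    have h1 : planeProj (c 1) x = iota c (pi2 c x) := by rw [planeProj, sub_eq_iff_eq_add, h2]
    rw [h1] at he
    have := congrArg (pi2 c) (congrArg (fun z => z + (0 : ℝ) • c 1) he)
    simpa only [pi2_iota] using this
  · rintro ⟨x, hx, rfl⟩
    refine ⟨x, hx, ?_⟩
    rw [planeProj, sub_eq_iff_eq_add, iota_pi2]

theorem planeArea_shadow (c : OrthonormalBasis (Fin 3) ℝ R3) :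
    planeArea (c 1) (planeProj (c 1) '' S.K) = volume (S.shadow c) := by
  rw [planeArea_eq c (S.cpt.image (continuous_planeProj _)).isClosed.measurableSet, shadow_eq]

/-- Chord lengths in the frame direction, for a point on the last axis. -/
theorem volume_ge_axis (hneg : ∀ x ∈ S.K, -x ∈ S.K) (c : OrthonormalBasis (Fin 3) ℝ R3)
    {z γ : ℝ} (hz : 0 ≤ z) (hp : (z, (0 : ℝ)) ∈ S.shadow c) (hγ : 0 ≤ γ)
    (hmin : ∀ s : ℝ, γ ≤ S.g (iota c (z, 0) + s • c 1)) :
    volume.real (S.shadow c) * S.h c (z, 0) * (2 + γ) / 6 ≤ volume.real S.K := by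
  have : (volume : Measure (ℝ × ℝ)).IsAddHaarMeasure := by
    rw [Measure.volume_eq_prod]; infer_instance
  set D := S.shadow c with hD
  set H := S.h c (z, 0) with hH
  set A := volume.real D with hA
  have hA0 : 0 ≤ A := measureReal_nonneg
  have hH0 : 0 ≤ H := S.h_nonneg c _
  have hDf : volume D ≠ ⊤ := (S.isCompact_shadow c).measure_lt_top.ne
  have hfn : ∀ p, S.fib c (-p) = -S.fib c p := fun p => by
    ext s
    have e : iota c (-p) + s • c 1 = -(iota c p + (-s) • c 1) := by
      rw [map_neg]; module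
    simp only [Body.fib, Set.mem_neg, mem_ofPred_eq, e]
    exact ⟨fun h => by simpa using hneg _ h, fun h => hneg _ h⟩
  have hDs : ∀ p ∈ D, -p ∈ D := fun p hp' => by
    rw [hD, S.mem_shadow c] at hp' ⊢
    rw [hfn]
    exact hp'.neg
  have hhn : S.h c (-(z, (0 : ℝ))) = H := by
    have hnm : ∀ X : Set ℝ, volume (-X) = volume X := fun X => by
      have := Measure.addHaar_smul (volume : Measure ℝ) (-1 : ℝ) X
      simpa using this
    rw [hH, Body.h, Body.h, hfn, measureReal_def, measureReal_def, hnm]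
  have hDc : Convex ℝ D := by
    intro a ha b hb s t hs ht hst
    have := (S.combine c ha hb ht (by linarith)).1
    rwa [show (1 : ℝ) - t = s by linarith] at this
  have hseg : ∀ r : ℝ, |r| ≤ z → (r, (0 : ℝ)) ∈ D ∧ H ≤ S.h c (r, 0) := by
    intro r hr
    rcases hz.eq_or_lt with h | h
    · rw [← h, abs_nonpos_iff] at hr
      subst hr
      rw [hH, ← h]
      exact ⟨h ▸ hp, le_rfl⟩
    obtain ⟨hr1, hr2⟩ := abs_le.1 hr
    set l := (z - r) / (2 * z) with hl
    have hl0 : 0 ≤ l := div_nonneg (by linarith) (by linarith)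
    have hl1 : l ≤ 1 := by rw [hl, div_le_one (by linarith)]; linarith
    have hh := S.combine c hp (hDs _ hp) hl0 hl1
    have e : (1 - l) • (z, (0 : ℝ)) + l • -(z, (0 : ℝ)) = (r, 0) := by
      ext
      · simp [hl]; field_simp; ring
      · simp
    rw [e, hhn] at hh
    exact ⟨hh.1, by linarith [hh.2]⟩
  have hmax : ∀ a : ℝ, (a, (0 : ℝ)) ∈ D → a * γ ≤ z := by
    intro a ha
    rcases le_or_gt a 0 with ha0 | ha0
    · exact (mul_nonpos_of_nonpos_of_nonneg ha0 hγ).trans hz
    obtain ⟨s, hs⟩ := (S.mem_shadow c).1 ha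
    have h1 : S.g (iota c (a, 0) + s • c 1) ≤ 1 := (S.mem_iff _).1 hs
    have e : iota c (z, 0) + (z / a * s) • c 1 = (z / a) • (iota c (a, 0) + s • c 1) := by
      have : (z, (0 : ℝ)) = (z / a) • (a, (0 : ℝ)) := by
        ext <;> simp [ha0.ne']
      rw [this, map_smul]; module
    have h2 := hmin (z / a * s)
    rw [e, S.g_smul (div_nonneg hz ha0.le)] at h2
    have h3 : γ ≤ z / a := h2.trans (mul_le_of_le_one_right (div_nonneg hz ha0.le) h1)
    have := mul_le_mul_of_nonneg_left h3 ha0.le
    rwa [mul_div_cancel₀ _ ha0.ne'] at this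
  have hlev : ∀ τ ∈ Ioi (0 : ℝ), (Ioo 0 H).indicator
      (fun τ => ENNReal.ofReal (((1 - τ / H) ^ 2 + (1 - τ / H) * (τ / H) * γ) * A)) τ ≤
        volume {q | τ ≤ S.h c q} := by
    intro τ hτ
    by_cases h1 : τ ∈ Ioo 0 H
    swap
    · simp [indicator_of_notMem h1]
    have hHp : 0 < H := h1.1.trans h1.2
    set s := τ / H with hs
    have hs0 : 0 < s := div_pos h1.1 hHp
    have hs1 : s < 1 := (div_lt_one hHp).2 h1.2
    rw [indicator_of_mem h1, ENNReal.ofReal_mul (by
      have : 0 ≤ 1 - s := by linarith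
      positivity), ofReal_measureReal hDf]
    refine (planar_bound (S.isCompact_shadow c) hDc hDs hγ hmax (sub_pos.2 hs1) hs0.le).trans
      (measure_mono ?_)
    rintro _ ⟨⟨d, r⟩, ⟨hd, hr⟩, rfl⟩
    have hr' : |r / s| ≤ z := by
      rw [abs_div, abs_of_pos hs0, div_le_iff₀ hs0, abs_le]
      exact ⟨by linarith [hr.1], by linarith [hr.2]⟩
    have hc2 := (S.combine c hd (hseg _ hr').1 hs0.le hs1.le).2
    have e : (1 - s) • d + s • (r / s, (0 : ℝ)) = (1 - s) • d + (r, 0) := by
      ext <;> simp [mul_div_cancel₀ _ hs0.ne']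
    rw [e] at hc2
    show τ ≤ S.h c ((1 - s) • d + (r, 0))
    have h3 : s * H = τ := div_mul_cancel₀ τ hHp.ne'
    nlinarith [S.h_nonneg c d, (hseg _ hr').2]
  have hmain : ENNReal.ofReal (A * H * (2 + γ) / 6) ≤ volume S.K := by
    rw [S.volume_K_eq c, lintegral_eq_lintegral_meas_le volume
      (Filter.Eventually.of_forall (S.h_nonneg c)) (S.measurable_h c).aemeasurable]
    refine le_trans (le_of_eq ?_) (setLIntegral_mono' measurableSet_Ioi hlev)
    rw [setLIntegral_indicator measurableSet_Ioo,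
      inter_eq_left.2 (Ioo_subset_Ioi_self : Ioo 0 H ⊆ Ioi 0)]
    have hio : IntegrableOn
        (fun x : ℝ => ((1 - x / H) ^ 2 + (1 - x / H) * (x / H) * γ) * A) (Ioo 0 H) :=
      (Continuous.integrableOn_Icc (by fun_prop)).mono_set Ioo_subset_Icc_self
    rw [← ofReal_integral_eq_lintegral_ofReal hio]
    · congr 1
      rw [← integral_Ioc_eq_integral_Ioo, ← intervalIntegral.integral_of_le hH0]
      rcases eq_or_lt_of_le hH0 with h | h
      · simp [← h]
      rw [intervalIntegral.integral_eq_sub_of_hasDerivAt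
          (f := fun x => A * (x - x ^ 2 / H + x ^ 3 / (3 * H ^ 2) +
            γ * (x ^ 2 / (2 * H) - x ^ 3 / (3 * H ^ 2))))]
      · field_simp; ring
      · intro x _
        have h2 : HasDerivAt (fun x : ℝ => x ^ 2) (2 * x) x := by simpa using hasDerivAt_pow 2 x
        have h3 : HasDerivAt (fun x : ℝ => x ^ 3) (3 * x ^ 2) x := by simpa using hasDerivAt_pow 3 x
        have := ((((hasDerivAt_id x).sub (h2.div_const H)).add (h3.div_const (3 * H ^ 2))).add
          (((h2.div_const (2 * H)).sub (h3.div_const (3 * H ^ 2))).const_mul γ)).const_mul A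
        refine this.congr_deriv ?_
        field_simp; ring
      · exact Continuous.intervalIntegrable (by fun_prop) _ _
    · filter_upwards [ae_restrict_mem measurableSet_Ioo] with x hx
      have h1 : 0 ≤ x / H := div_nonneg hx.1.le hH0
      have h2 : 0 ≤ 1 - x / H := by
        rw [sub_nonneg, div_le_one (hx.1.trans hx.2)]; exact hx.2.le
      positivity
  exact (ENNReal.ofReal_le_iff_le_toReal S.cpt.measure_lt_top.ne).1 hmain

/-- The volume bound for an arbitrary point of the shadow. -/
theorem volume_ge_point (hneg : ∀ x ∈ S.K, -x ∈ S.K) (c : OrthonormalBasis (Fin 3) ℝ R3)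
    {p : ℝ × ℝ} (hp : p ∈ S.shadow c) {γ : ℝ} (hγ : 0 ≤ γ)
    (hmin : ∀ s : ℝ, γ ≤ S.g (iota c p + s • c 1)) :
    volume.real (S.shadow c) * S.h c p * (2 + γ) / 6 ≤ volume.real S.K := by
  rcases eq_or_ne (iota c p) 0 with h0 | h0
  · have hγ0 : γ = 0 := le_antisymm (by simpa [h0, Body.g] using hmin 0) hγ
    have := S.h_mul_area_le c (x := p)
    rw [hγ0]; linarith
  set e : R3 := ‖iota c p‖⁻¹ • iota c p with he
  have hee : ‖e‖ = 1 := norm_smul_inv_norm h0
  have hue : ⟪c 1, e⟫_ℝ = 0 := by rw [he, real_inner_smul_right, inner_iota, mul_zero]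
  obtain ⟨c', hc1, hc2⟩ := exists_frame (c 1) e (c.orthonormal.1 1) hee hue
  set z := ‖iota c p‖ with hz
  have hio : iota c' (z, 0) = iota c p := by
    show (0 : ℝ) • c' 0 + z • c' 2 = iota c p
    rw [zero_smul, zero_add, hc2, he, smul_smul, mul_inv_cancel₀ (norm_ne_zero_iff.2 h0), one_smul]
  have hfib : S.fib c' (z, 0) = S.fib c p := by
    simp only [Body.fib, hio, hc1]
  have hp' : (z, (0 : ℝ)) ∈ S.shadow c' := by
    rw [S.mem_shadow, hfib, ← S.mem_shadow]; exact hp
  have key := volume_ge_axis S hneg c' (norm_nonneg _) hp' hγ (by rw [hio, hc1]; exact hmin)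
  have hh : S.h c' (z, 0) = S.h c p := by rw [Body.h, Body.h, hfib]
  have hA : volume (S.shadow c') = volume (S.shadow c) := by
    rw [← planeArea_shadow, ← planeArea_shadow, hc1]
  rwa [hh, measureReal_def (s := S.shadow c'), hA, ← measureReal_def] at key

theorem integral_convex_le {G : ℝ → ℝ} (hG : Continuous G) (hc : ConvexOn ℝ univ G) {a b P Q : ℝ}
    (hab : a ≤ b) (ha : G a ≤ P) (hb : G b ≤ Q) :
    ∫ s in a..b, (1 + 2 * G s) ≤ (b - a) * (1 + P + Q) := by
  rcases hab.eq_or_lt with rfl | h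
  · simp
  have hle : ∀ s ∈ Icc a b, 1 + 2 * G s ≤ 1 + 2 * (P + (Q - P) / (b - a) * (s - a)) := by
    intro s hs
    set t := (s - a) / (b - a) with ht
    have ht0 : 0 ≤ t := div_nonneg (by linarith [hs.1]) (by linarith)
    have ht1 : t ≤ 1 := by rw [ht, div_le_one (by linarith)]; linarith [hs.2]
    have := hc.2 (mem_univ a) (mem_univ b) (sub_nonneg.2 ht1) ht0 (by ring)
    have e : (1 - t) • a + t • b = s := by
      simp only [smul_eq_mul, ht]; field_simp; ring
    rw [e] at this
    simp only [smul_eq_mul] at this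
    have e2 : (Q - P) / (b - a) * (s - a) = t * (Q - P) := by rw [ht]; ring
    rw [e2]
    nlinarith [mul_le_mul_of_nonneg_left ha (sub_nonneg.2 ht1), mul_le_mul_of_nonneg_left hb ht0]
  refine (intervalIntegral.integral_mono_on hab (Continuous.intervalIntegrable (by fun_prop) _ _)
    (Continuous.intervalIntegrable (by fun_prop) _ _) hle).trans (le_of_eq ?_)
  have hba : b - a ≠ 0 := by linarith
  rw [intervalIntegral.integral_eq_sub_of_hasDerivAt
    (f := fun s => (1 + 2 * P) * s + (Q - P) / (b - a) * (s - a) ^ 2)]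
  · field_simp; ring
  · intro x _
    have := ((hasDerivAt_id x).const_mul (1 + 2 * P)).add
      ((((hasDerivAt_id x).sub_const a).pow 2).const_mul ((Q - P) / (b - a)))
    refine this.congr_deriv ?_
    simp; ring
  · exact Continuous.intervalIntegrable (by fun_prop) _ _

/-- Every chord carries weight at most six volumes per unit of shadow area. -/
theorem chord_weight (hneg : ∀ x ∈ S.K, -x ∈ S.K) (c : OrthonormalBasis (Fin 3) ℝ R3) (p : ℝ × ℝ) :
    (∫⁻ s in S.fib c p, wt S (iota c p + s • c 1)) ≤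
      ENNReal.ofReal (6 * volume.real S.K / volume.real (S.shadow c)) := by
  by_cases hp : p ∈ S.shadow c
  swap
  · rw [S.mem_shadow c, not_nonempty_iff_eq_empty] at hp
    simp [hp]
  obtain ⟨β, τ, hle, hI, hh, -⟩ := S.fib_eq_Icc c hp
  set G := fun s : ℝ => S.g (iota c p + s • c 1) with hG
  have hGc : Continuous G :=
    S.g_continuous.comp (continuous_const.add (continuous_id.smul continuous_const))
  have hGx : ConvexOn ℝ univ G := by
    refine ⟨convex_univ, fun x _ y _ a b ha hb hab => ?_⟩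
    have e : iota c p + (a * x + b * y) • c 1 =
        a • (iota c p + x • c 1) + b • (iota c p + y • c 1) := by
      rw [← eq_sub_iff_add_eq'] at hab
      subst hab
      module
    show S.g (iota c p + (a * x + b * y) • c 1) ≤
      a * S.g (iota c p + x • c 1) + b * S.g (iota c p + y • c 1)
    rw [e]
    exact S.g_comb ha hb _ _
  obtain ⟨s₀, hs₀, hmin₀⟩ := isCompact_Icc.exists_isMinOn (nonempty_Icc.2 hle) hGc.continuousOn
  have hone : ∀ s, s ∈ Icc β τ ↔ G s ≤ 1 := fun s => by
    rw [← hI, ← S.mem_iff]; rfl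
  have hmin : ∀ s, G s₀ ≤ G s := fun s => by
    by_cases hs : s ∈ Icc β τ
    · exact hmin₀ hs
    · rw [hone, not_le] at hs
      linarith [(hone s₀).1 hs₀]
  have hvol := volume_ge_point S hneg c hp (S.g_nonneg _) hmin
  rw [hh] at hvol
  have h1 := integral_convex_le hGc hGx hs₀.1 ((hone β).1 (left_mem_Icc.2 hle)) le_rfl
  have h2 := integral_convex_le hGc hGx hs₀.2 le_rfl ((hone τ).1 (right_mem_Icc.2 hle))
  have hint : ∀ a b, IntervalIntegrable (fun s => 1 + 2 * G s) volume a b := fun a b =>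
    Continuous.intervalIntegrable (by fun_prop) _ _
  have h3 : ∫ s in β..τ, (1 + 2 * G s) ≤ (τ - β) * (2 + G s₀) := by
    rw [← intervalIntegral.integral_add_adjacent_intervals (hint β s₀) (hint s₀ τ)]
    nlinarith
  have hcalc : (∫⁻ s in S.fib c p, wt S (iota c p + s • c 1)) =
      ENNReal.ofReal (∫ s in β..τ, (1 + 2 * G s)) := by
    rw [hI, intervalIntegral.integral_of_le hle, ← integral_Icc_eq_integral_Ioc,
      ofReal_integral_eq_lintegral_ofReal (Continuous.integrableOn_Icc (by fun_prop))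
        (Filter.Eventually.of_forall fun s => by
          have : 0 ≤ G s := S.g_nonneg _
          simp only [Pi.zero_apply]; linarith)]
    rfl
  rw [hcalc]
  refine ENNReal.ofReal_le_ofReal (h3.trans ?_)
  rw [le_div_iff₀ (S.area_pos c)]
  linarith

theorem cylinder_weight (hneg : ∀ x ∈ S.K, -x ∈ S.K) {u : R3} (hu : ‖u‖ = 1) {B : Set R3}
    (hB : MeasurableSet B) (hBp : ∀ b ∈ B, ⟪u, b⟫_ℝ = 0) :
    (∫⁻ x in cylinder u B ∩ S.K, wt S x) ≤
      ENNReal.ofReal 6 * volume S.K * (planeArea u B / planeArea u (planeProj u '' S.K)) := by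
  obtain ⟨c, rfl⟩ := exists_frame_one u hu
  rw [cylinder_eq hu hBp, planeArea_eq c hB, planeArea_shadow]
  have hXm : MeasurableSet (planeProj (c 1) ⁻¹' B ∩ S.K) :=
    ((continuous_planeProj _).measurable hB).inter S.cpt.isClosed.measurableSet
  have hf : Measurable ((planeProj (c 1) ⁻¹' B ∩ S.K).indicator (wt S)) :=
    (measurable_wt S).indicator hXm
  rw [← lintegral_indicator hXm, ← (line_preserving c).lintegral_comp hf]
  rw [    Measure.volume_eq_prod, lintegral_prod (fun a => (planeProj (c 1) ⁻¹' B ∩ S.K).indicator (wt S) (line c a))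
      (hf.comp (line_preserving c).measurable).aemeasurable]
  set C := ENNReal.ofReal (6 * volume.real S.K / volume.real (S.shadow c)) with hC
  have hproj : ∀ (p : ℝ × ℝ) (s : ℝ), planeProj (c 1) (iota c p + s • c 1) = iota c p := fun p s => by
    simp [planeProj, inner_add_right, inner_iota, inner_smul_right, hu]
  calc ∫⁻ p, ∫⁻ s, (planeProj (c 1) ⁻¹' B ∩ S.K).indicator (wt S) (line c (p, s))
      ≤ ∫⁻ p, ((iota c) ⁻¹' B).indicator (fun _ => C) p := by
        refine lintegral_mono fun p => ?_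
        by_cases hp : iota c p ∈ B
        · rw [indicator_of_mem (show p ∈ (iota c) ⁻¹' B from hp)]
          refine le_trans (le_of_eq ?_) (chord_weight S hneg c p)
          rw [← lintegral_indicator (by
            exact (S.cpt.isClosed.preimage
              (continuous_const.add (continuous_id.smul continuous_const))).measurableSet)]
          refine lintegral_congr fun s => ?_
          by_cases hs : s ∈ S.fib c p
          · rw [indicator_of_mem hs, indicator_of_mem]
            · rfl
            · exact ⟨by show planeProj (c 1) (line c (p, s)) ∈ B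
                        simp only [line, hproj, hp], hs⟩
          · rw [indicator_of_notMem hs, indicator_of_notMem]
            exact fun h => hs h.2
        · rw [indicator_of_notMem (show p ∉ (iota c) ⁻¹' B from hp)]
          refine le_of_eq ((lintegral_congr fun s => indicator_of_notMem ?_ _).trans lintegral_zero)
          exact fun h => hp (by simpa [line, hproj] using h.1)
    _ = C * volume ((iota c) ⁻¹' B) := by
        rw [lintegral_indicator ((continuous_iota c).measurable hB), setLIntegral_const]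
    _ = _ := by
        rw [hC, ENNReal.ofReal_div_of_pos (S.area_pos c),
          ENNReal.ofReal_mul (by norm_num : (0 : ℝ) ≤ 6),
          ofReal_measureReal S.cpt.measure_lt_top.ne,
          ofReal_measureReal (S.isCompact_shadow c).measure_lt_top.ne]
        simp only [div_eq_mul_inv]
        ring

theorem body_relative (hneg : ∀ x ∈ S.K, -x ∈ S.K) {m : ℕ} (u : Fin m → R3)
    (hu : ∀ i, ‖u i‖ = 1) (B : Fin m → Set R3) (hB : ∀ i, MeasurableSet (B i))
    (hBp : ∀ i, ∀ b ∈ B i, ⟪u i, b⟫_ℝ = 0) (hcov : S.K ⊆ ⋃ i, cylinder (u i) (B i)) :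
    ENNReal.ofReal (5 / 12) ≤
      ∑ i, planeArea (u i) (B i) / planeArea (u i) (planeProj (u i) '' S.K) := by
  set R := ∑ i, planeArea (u i) (B i) / planeArea (u i) (planeProj (u i) '' S.K) with hR
  have hV0 : volume S.K ≠ 0 := fun h => by
    have := volume_pos S
    simp [measureReal_def, h] at this
  have h : ENNReal.ofReal (5 / 2) * volume S.K ≤ ENNReal.ofReal 6 * volume S.K * R := by
    rw [← lintegral_wt S, hR, Finset.mul_sum]
    calc ∫⁻ x in S.K, wt S x ≤ ∫⁻ x in ⋃ i, cylinder (u i) (B i) ∩ S.K, wt S x := by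
          refine lintegral_mono_set fun x hx => ?_
          obtain ⟨i, hi⟩ := mem_iUnion.1 (hcov hx)
          exact mem_iUnion.2 ⟨i, hi, hx⟩
      _ ≤ ∑' i, ∫⁻ x in cylinder (u i) (B i) ∩ S.K, wt S x := lintegral_iUnion_le _ _
      _ = ∑ i, ∫⁻ x in cylinder (u i) (B i) ∩ S.K, wt S x := tsum_fintype _
      _ ≤ _ := Finset.sum_le_sum fun i _ => cylinder_weight S hneg (hu i) (hB i) (hBp i)
  have e : ENNReal.ofReal (5 / 2) = ENNReal.ofReal 6 * ENNReal.ofReal (5 / 12) := by
    rw [← ENNReal.ofReal_mul (by norm_num)]; norm_num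
  rw [e, mul_right_comm (ENNReal.ofReal 6) (volume S.K)] at h
  have h' := (ENNReal.mul_le_mul_iff_left hV0 S.cpt.measure_lt_top.ne).1 h
  exact (ENNReal.mul_le_mul_iff_right (by simp) ENNReal.ofReal_ne_top).1 h'

/-- Every finite cylinder covering of a centrally symmetric body has relative area at least
`5/12`. -/
theorem relative_symmetric (m : ℕ) (K : Set R3) (hK : Convex ℝ K) (hKc : IsCompact K)
    (hKi : (interior K).Nonempty) (hsym : ∀ x ∈ K, -x ∈ K) (u : Fin m → R3)
    (hu : ∀ i, ‖u i‖ = 1) (B : Fin m → Set R3) (hB : ∀ i, MeasurableSet (B i))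
    (hBp : ∀ i, ∀ b ∈ B i, ⟪u i, b⟫_ℝ = 0) (hcov : K ⊆ ⋃ i, cylinder (u i) (B i)) :
    ENNReal.ofReal (5 / 12) ≤
      ∑ i, planeArea (u i) (B i) / planeArea (u i) (planeProj (u i) '' K) := by
  obtain ⟨a, S, hS⟩ := exists_normal hK hKc hKi
  have hmem : ∀ y, y ∈ S.K ↔ y + a ∈ K := fun y => by rw [hS]; rfl
  refine body_relative ⟨K, S.T, hKc, hK, fun x hx => ?_, fun x hx => ?_⟩ hsym u hu B hB hBp hcov
  · have h1 := (hmem x).1 (S.hin x hx)
    have h2 := hsym _ ((hmem (-x)).1 (S.hin (-x) (by rwa [map_neg, norm_neg])))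
    have := hK h1 h2 (by norm_num : (0 : ℝ) ≤ 1 / 2) (by norm_num : (0 : ℝ) ≤ 1 / 2) (by norm_num)
    rwa [show (1 / 2 : ℝ) • (x + a) + (1 / 2 : ℝ) • -(-x + a) = x by module] at this
  · have h1 := S.hout (x - a) ((hmem _).2 (by rwa [sub_add_cancel]))
    have h2 := S.hout (-x - a) ((hmem _).2 (by rw [sub_add_cancel]; exact hsym x hx))
    have h3 := norm_sub_le (S.T (x - a)) (S.T (-x - a))
    rw [← map_sub, show x - a - (-x - a) = (2 : ℝ) • x by module, map_smul, norm_smul,
      Real.norm_two] at h3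
    linarith

/-- The same for an arbitrary centre of symmetry. -/
theorem relative_centred (m : ℕ) (K : Set R3) (hK : Convex ℝ K) (hKc : IsCompact K)
    (hKi : (interior K).Nonempty) (a : R3) (hsym : ∀ x ∈ K, (2 : ℝ) • a - x ∈ K) (u : Fin m → R3)
    (hu : ∀ i, ‖u i‖ = 1) (B : Fin m → Set R3) (hB : ∀ i, MeasurableSet (B i))
    (hBp : ∀ i, ∀ b ∈ B i, ⟪u i, b⟫_ℝ = 0) (hcov : K ⊆ ⋃ i, cylinder (u i) (B i)) :
    ENNReal.ofReal (5 / 12) ≤
      ∑ i, planeArea (u i) (B i) / planeArea (u i) (planeProj (u i) '' K) := by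
  set K' := (fun x => x + a) ⁻¹' K with hK'
  set B' := fun i => (fun y => y + planeProj (u i) a) ⁻¹' B i with hB'
  have hadd : ∀ i x, planeProj (u i) (x + a) = planeProj (u i) x + planeProj (u i) a := fun i x => by
    simp only [planeProj, inner_add_right]; module
  have hB'p : ∀ i, ∀ b ∈ B' i, ⟪u i, b⟫_ℝ = 0 := fun i b hb => by
    have h := hBp i _ hb
    rwa [inner_add_right, inner_planeProj (hu i), add_zero] at h
  have hB'm : ∀ i, MeasurableSet (B' i) := fun i => (measurable_add_const _) (hB i)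
  have hcov' : K' ⊆ ⋃ i, cylinder (u i) (B' i) := fun x hx => by
    obtain ⟨i, hi⟩ := mem_iUnion.1 (hcov hx)
    rw [cylinder_eq (hu i) (hBp i), mem_preimage, hadd] at hi
    refine mem_iUnion.2 ⟨i, ?_⟩
    rw [cylinder_eq (hu i) (hB'p i)]
    exact hi
  have hproj : ∀ i, planeArea (u i) (planeProj (u i) '' K) =
      planeArea (u i) (planeProj (u i) '' K') := fun i => by
    rw [← planeArea_translate (u i) _ (inner_planeProj (hu i) a) (planeProj (u i) '' K)]
    congr 1
    ext y
    constructor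
    · rintro ⟨x, hx, he⟩
      refine ⟨x - a, by simpa [hK'] using hx, ?_⟩
      have h := hadd i (x - a)
      rw [sub_add_cancel, he] at h
      exact (add_right_cancel h).symm
    · rintro ⟨x, hx, rfl⟩
      exact ⟨x + a, hx, hadd i x⟩
  have hBe : ∀ i, planeArea (u i) (B' i) = planeArea (u i) (B i) := fun i =>
    planeArea_translate (u i) _ (inner_planeProj (hu i) a) (B i)
  simp only [hproj, ← hBe]
  refine relative_symmetric m K' (hK.translate_preimage_left a)
    ((Homeomorph.addRight a).isCompact_preimage.2 hKc) ?_ (fun x hx => ?_) u hu B' hB'm hB'p hcov'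
  · obtain ⟨x, hx⟩ := hKi
    refine ⟨x - a, ?_⟩
    rw [hK', show (fun x => x + a) = (Homeomorph.addRight a) from rfl,
      ← Homeomorph.preimage_interior]
    simpa using hx
  · have h := hsym _ hx
    rwa [show (2 : ℝ) • a - (x + a) = -x + a by module] at h

/-- The absolute form. -/
theorem area_centred (m : ℕ) (K : Set R3) (hK : Convex ℝ K) (hKc : IsCompact K)
    (hKi : (interior K).Nonempty) (a : R3) (hsym : ∀ x ∈ K, (2 : ℝ) • a - x ∈ K) (u : Fin m → R3)
    (hu : ∀ i, ‖u i‖ = 1) (B : Fin m → Set R3) (hB : ∀ i, MeasurableSet (B i))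
    (hBp : ∀ i, ∀ b ∈ B i, ⟪u i, b⟫_ℝ = 0) (hcov : K ⊆ ⋃ i, cylinder (u i) (B i)) :
    ENNReal.ofReal (5 / 12) * minProjArea K ≤ ∑ i, planeArea (u i) (B i) := by
  refine (mul_le_mul_left (relative_centred m K hK hKc hKi a hsym u hu B hB hBp hcov) _).trans ?_
  rw [Finset.sum_mul]
  refine Finset.sum_le_sum fun i _ => ?_
  have hle : minProjArea K ≤ planeArea (u i) (planeProj (u i) '' K) := iInf₂_le (u i) (hu i)
  refine (mul_le_mul_right hle _).trans ?_
  exact ENNReal.mul_le_of_le_div le_rfl

end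

end Vale.Agent.P243.Sym
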